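import Vale.Agent.P182.H361.Alt

/-!
# The strong form of the alternative

The two skew Higgs fields see only the levels of `M`.
-/

namespace Vale.Agent.P182.H361

open LinearMap Submodule Module Vale.Agent.P182 Vale.Agent.P182.H430 Vale.Agent.P182.H388
  Vale.Agent.P182.H578 Vale.Agent.P182.H735

variable {k F P : Type*} [Field k] [Field F] [Algebra k F] {C : Curve k F P}
variable {E : Type*} [AddCommGroup E] [Module F E] [Module k E] [IsScalarTower k F E]
variable {W : Type*} [AddCommGroup W] [Module F W] [Module k W] [IsScalarTower k F W]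

/-- either `φ^* φ ≠ 0`, or there are two independent skew Higgs fields of `N` which kill `ker φ`
and see only the levels of `M` -/
def AltM (κ : P → ℤ) (N : Bun C E) (M : Bun C W) (b : LinearMap.BilinForm F E)
    (q : LinearMap.BilinForm F W) (φ : E →ₗ[F] W) : Prop :=
  (∀ φs : W →ₗ[F] E, (∀ w e, b (φs w) e = q w (φ e)) → φs ∘ₗ φ ≠ 0) ∨
    ∃ h : Fin 2 → (E →ₗ[F] E), (∀ i, h i ∈ adj b (-1)) ∧
      (∀ i p a c, (M.ch p).L a ≤ (M.ch p).L c → ∀ e ∈ (N.ch p).L a,
        h i e ∈ (N.ch p).L (c - κ p)) ∧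
      (∀ i e, φ e = 0 → h i e = 0) ∧ LinearIndependent k h

theorem AltM.alt {κ : P → ℤ} {N : Bun C E} {M : Bun C W} {b : LinearMap.BilinForm F E}
    {q : LinearMap.BilinForm F W} {φ : E →ₗ[F] W} (h : AltM κ N M b q φ) : Alt κ N b q φ := by
  rcases h with h | ⟨h, h1, h2, h3, h4⟩
  · exact Or.inl h
  · exact Or.inr ⟨h, h1, fun i p a e he => h2 i p a a le_rfl e he, h3, h4⟩

end Vale.Agent.P182.H361
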