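import Vale.Agent.P182.H361.NoHIn1
import Vale.Agent.P182.H668.Final

/-!
# Input (H) does not occur
-/

namespace Vale.Agent.P182.H361

open Module Matrix TensorProduct Polynomial Vale.Agent.P182.H533 Vale.Agent.P182.B1
  Vale.Agent.P182.H62
open Vale.Agent.P182.H430 hiding perp

universe u

/-- input (H) in constants does not occur -/
theorem ConstIn.elim {k : Type u} [Field k] [IsAlgClosed k] {J : Type u} [Fintype J]
    [DecidableEq J] {S M : Type u} [AddCommGroup S] [Module k S] [AddCommGroup M] [Module k M]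
    [FiniteDimensional k S] [FiniteDimensional k M] {Y : NData k J} {𝒢 : Fl3 k Y.n S}
    {ℋ : Fl3 k Y.n M} {q : M →ₗ[k] M →ₗ[k] k} {x : J → S} {φ : J → M}
    (h : ConstIn Y 𝒢 ℋ q x φ) (hdet : IsUnit Y.Om'.det) (h2 : (2 : k) ≠ 0) (hΩ : Y.VersΩ) :
    False :=
  H668.endgame_inp (Y.dualizing (FractionRing k[X])) (H388.two_ne (FractionRing k[X]) h2)
    (h.inp (F := FractionRing k[X]) hdet h2 hΩ) (fun p => (Y.tht_two p).symm) Y.tht_fin
    (H388.nVV Y (F := FractionRing k[X]) hdet h2 hΩ) (h.alt' (F := FractionRing k[X]) hdet)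

/-- the determinant does not depend on the instances -/
theorem det_inst {m R : Type*} [CommRing R] (i₁ i₂ : Fintype m) (d₁ d₂ : DecidableEq m)
    (A : Matrix m m R) : @Matrix.det m d₁ i₁ R _ A = @Matrix.det m d₂ i₂ R _ A := by
  cases Subsingleton.elim i₁ i₂
  cases Subsingleton.elim d₁ d₂
  rfl

/-- **INPUT (H) DOES NOT OCCUR** -/
theorem noHIn (J : Type u) [Fintype J] [DecidableEq J] : H258.NoHIn.{u, u} J := by
  intro L _ _ _ V _ _ _ 𝒟 h S x φ hin
  obtain ⟨n, hn⟩ := exists_bd h.good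
  have hdet : IsUnit (nD h.good hn).Om'.det :=
    (congrArg IsUnit (det_inst _ _ _ _ _)).mp
      (nD_det h.good hn h.versal (semistable_of_uStrict h.strict))
  exact (constIn_of_hIn hn hin).elim hdet two_ne_zero (nD_vers h.good hn h.versal)

/-- **(B2) does not occur** -/
theorem hypB2 (J : Type u) [Fintype J] [DecidableEq J] : H258.HypB2.{u, u} J :=
  H258.hypB2 (noHIn J)

end Vale.Agent.P182.H361
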