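import Vale.Agent.P182.H361.InpOf
import Vale.Agent.P182.H258.Prod6
import Vale.Agent.P182.H563.Glue2
import Vale.Agent.P182.H388.NV2

/-!
# Input (H) gives the input of the endgame
-/

namespace Vale.Agent.P182.H361

open Module Matrix TensorProduct Polynomial Vale.Agent.P182.H533 Vale.Agent.P182.B1
  Vale.Agent.P182.H62
open Vale.Agent.P182.H430 hiding perp

universe u w

section const

variable {L : Type u} {V : Type u} {J : Type w} [Field L] [AddCommGroup V] [Module L V]
  {𝒟 : Cfg L V J} {S : Submodule L V} [FiniteDimensional L V]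

/-- the flags of `S` -/
def flS (g : 𝒟.Good) (n : ℕ) (S : Submodule L V) : Fl3 L n ↥S where
  G := lvlS 𝒟 n S
  anti := lvlS_anti g n
  top _ _ h := lvlS_top g h
  bot _ _ h := lvlS_bot g h

/-- the flags of `S^⊥ / S` -/
noncomputable def flM (g : 𝒟.Good) (h : 𝒟.Iso S) (n : ℕ) : Fl3 L n (SQ 𝒟.q S) where
  G := lvl (sq 𝒟 g S) n
  anti := lvl_anti (good_sq g h) n
  top _ _ h' := lvl_top (good_sq g h) h'
  bot _ _ h' := lvl_bot (good_sq g h) h'

variable [Fintype J] [CharZero L] {g : 𝒟.Good} {n : ℕ} (hn : Bd 𝒟 n)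
  {x : J → ↥S} {φ : J → SQ 𝒟.q S}

/-- input (H) over the nonzero columns, with levels -/
theorem constIn_of_hIn (h : H258.HIn 𝒟 g S x φ) :
    ConstIn (nD g hn) (flS g n S) (flM g h.iso n) (sq 𝒟 g S).q (fun l => x l)
      (fun l => φ l) where
  symm := (good_sq g h.iso).form.symm
  nd := (good_sq g h.iso).form.nondeg
  dual s a v := mem_lvl_dual (good_sq g h.iso)
  mx := HIn.x_mem hn h
  mφ := HIn.φ_mem hn h
  hφ t ht := HIn.φ_span' hn h ht
  ext := HIn.ext' h
  hC := HIn.c_ne' hn h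
  hz z h1 h2 := by
    refine HIn.c_surj' hn h ⟨fun l => ?_, fun l => ?_⟩
    · rw [lvlD, Submodule.mem_dualAnnihilator]
      intro v hv
      refine h1 l v ?_
      have e : (1 : ℤ) - ((nD g hn).n + 1 - (nD g hn).c l) = (nD g hn).c l - (nD g hn).n := by
        ring
      rw [e] at hv
      exact hv
    · rw [lvlD, Submodule.mem_dualAnnihilator]
      intro v hv
      have e : (1 : ℤ) - ((nD g hn).c l - (nD g hn).n) = (nD g hn).n + 1 - (nD g hn).c l := by
        ring
      rw [e] at hv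
      have h3 := h2 l v hv
      rw [LinearMap.sum_apply]
      exact h3
  inj d hd h0 := HIn.c_inj' hn h hd h0
  gq0 l m hlm := HIn.gq_arm h l m hlm
  gq1 l m hlm hc := HIn.gq_sum h l m hlm hc
  alt := by
    rcases HIn.alt' h n with ⟨l, m, h0⟩ | ⟨γ, h1, h2, h3, h4, h5⟩
    · exact Or.inl ⟨l, m, h0⟩
    · exact Or.inr ⟨γ, h1, h2, h3, h4, h5⟩

end const

theorem semistable_of_uStrict {L : Type u} {V : Type u} {J : Type w} [Field L]
    [AddCommGroup V] [Module L V] [Fintype J] {𝒟 : Cfg L V J} (h : UStrict 𝒟) :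
    𝒟.Semistable := by
  intro S hS
  by_cases h0 : S = ⊥
  · rw [h0, H887.theta_bot']
  · have := H258.ustrict_self h hS h0
    omega

end Vale.Agent.P182.H361
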