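import Vale.Agent.P182.H361.Col

/-!
# Input (H) in constants, over the nonzero columns and with levels
-/

namespace Vale.Agent.P182.H361

open Module Matrix Vale.Agent.P182.H533 Vale.Agent.P182.B1 Vale.Agent.P182.H62
open Vale.Agent.P182.H430 hiding perp

universe u v w

/-- skew forms compatible with the levels -/
def LevSk {L B : Type*} [Field L] [AddCommGroup B] [Module L B]
    (G : Fin 3 → ℤ → Submodule L B) (c : B →ₗ[L] Dual L B) : Prop :=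
  (∀ u v, c u v = - c v u) ∧
    ∀ s a b, 1 ≤ a + b → ∀ u ∈ G s a, ∀ v ∈ G s b, c u v = 0

section obj

variable {L : Type u} {V : Type u} {J : Type w} [Field L] [AddCommGroup V] [Module L V]
  {𝒟 : Cfg L V J} {S : Submodule L V}

/-- the levels of `S` -/
def lvlS (𝒟 : Cfg L V J) (n : ℕ) (S : Submodule L V) (s : Fin 3) (a : ℤ) : Submodule L ↥S :=
  (lvl 𝒟 n s a).comap S.subtype

theorem mem_lvlS {n : ℕ} {s : Fin 3} {a : ℤ} {v : ↥S} :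
    v ∈ lvlS 𝒟 n S s a ↔ (v : V) ∈ lvl 𝒟 n s a := Iff.rfl

theorem lvlS_anti (g : 𝒟.Good) (n : ℕ) (s : Fin 3) : Antitone (lvlS 𝒟 n S s) :=
  fun _ _ h => Submodule.comap_mono (lvl_anti g n s h)

theorem lvlS_top (g : 𝒟.Good) {n : ℕ} {s : Fin 3} {a : ℤ} (h : a ≤ -n) :
    lvlS 𝒟 n S s a = ⊤ := by
  rw [lvlS, lvl_top g h, Submodule.comap_top]

theorem lvlS_bot (g : 𝒟.Good) {n : ℕ} {s : Fin 3} {a : ℤ} (h : n + 1 ≤ a) :
    lvlS 𝒟 n S s a = ⊥ := by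
  rw [lvlS, lvl_bot g h, Submodule.comap_bot, Submodule.ker_subtype]

/-- the levels of `S^*` -/
def lvlD (𝒟 : Cfg L V J) (n : ℕ) (S : Submodule L V) (s : Fin 3) (a : ℤ) :
    Submodule L (Dual L ↥S) := (lvlS 𝒟 n S s (1 - a)).dualAnnihilator

theorem skF_iff (g : 𝒟.Good) {n : ℕ} (hn : Bd 𝒟 n) {d : ↥S →ₗ[L] Dual L ↥S} :
    d ∈ H258.SkF 𝒟 S ↔ LevSk (lvlS 𝒟 n S) d := by
  constructor
  · rintro ⟨h1, h2⟩
    have key : ∀ s a b, 1 ≤ a + b → 1 ≤ a → ∀ u ∈ lvlS 𝒟 n S s a, ∀ v ∈ lvlS 𝒟 n S s b,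
        d u v = 0 := by
      intro s a b hab ha u hu v hv
      rw [mem_lvlS, lvl_pos ha] at hu
      refine h2 s _ u v hu ?_
      rw [mem_lvlS] at hv
      rcases le_or_gt 1 b with hb | hb
      · rw [lvl_pos hb] at hv
        exact F_le_perp g s _ _ hv
      · have hb' : b ≤ 0 := by omega
        rw [lvl_neg hb'] at hv
        exact perp_anti (g.mono s (by omega)) hv
    refine ⟨h1, fun s a b hab u hu v hv => ?_⟩
    rcases le_or_gt 1 a with ha | ha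
    · exact key s a b hab ha u hu v hv
    · rw [h1, key s b a (by omega) (by omega) v hv u hu, neg_zero]
  · rintro ⟨h1, h2⟩
    refine ⟨h1, fun s i u v hu hv => ?_⟩
    rcases le_or_gt i n with hi | hi
    · refine h2 s (n + 1 - i) (i - n) (by omega) u ?_ v ?_
      · rw [mem_lvlS, lvl_F hi]; exact hu
      · rw [mem_lvlS, lvl_perp hi]; exact hv
    · rw [hn.F s i hi.le] at hu hv
      refine h2 s (n + 1 - n) (n - n) (by omega) u ?_ v ?_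
      · rw [mem_lvlS, lvl_F le_rfl]; exact hu
      · rw [mem_lvlS, lvl_perp le_rfl]; exact hv

variable [FiniteDimensional L V] [Fintype J] [CharZero L] {g : 𝒟.Good} {n : ℕ} (hn : Bd 𝒟 n)
  {x : J → ↥S} {φ : J → SQ 𝒟.q S}

include hn in
theorem objA_eq (l : J) : lvlS 𝒟 n S (𝒟.arm l) (n + 1 - 𝒟.c l) = objA 𝒟 S l := by
  rw [lvlS, lvl_F (hn.c l)]; rfl

include hn in
theorem objB_eq (l : J) : lvlS 𝒟 n S (𝒟.arm l) (𝒟.c l - n) = objB 𝒟 S l := by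
  rw [lvlS, lvl_perp (hn.c l)]; rfl

theorem objA_bot {l : J} (h : 𝒟.C l = ⊥) : objA 𝒟 S l = ⊥ := by
  rw [objA, h, Submodule.comap_bot, Submodule.ker_subtype]

theorem perp_bot' : perp 𝒟.q (⊥ : Submodule L V) = ⊤ := by
  rw [eq_top_iff]
  intro v _ w hw
  rw [(Submodule.mem_bot L).1 hw, map_zero]

theorem objB_bot {l : J} (h : 𝒟.C l = ⊥) : objB 𝒟 S l = ⊤ := by
  rw [objB, h, perp_bot', Submodule.comap_top]

include hn in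
theorem bd_sq : Bd (sq 𝒟 g S) n :=
  ⟨hn.c, fun s i hi => by rw [sq_F, sq_F, hn.F s i hi]⟩

theorem mem_K_iff' {t : J → V} : t ∈ 𝒟.K ↔
    t ∈ H887.HomN 𝒟.Ω (fun l => 𝒟.C l) (fun l => perp 𝒟.q (𝒟.C l)) := by
  rw [H887.mem_HomN, Cfg.mem_K]
  simp only [om_eq]

/-- `x` over the nonzero columns -/
theorem HIn.x_mem (h : H258.HIn 𝒟 g S x φ) : InK (nD g hn) (lvlS 𝒟 n S) (fun l => x l) :=
  inK_of_homN g hn (fun l _ => objA_eq hn l) (fun l _ => objB_eq hn l)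
    (fun _ h => objA_bot h) h.xN

theorem HIn.x_zero (h : H258.HIn 𝒟 g S x φ) {l : J} (hl : 𝒟.C l = ⊥) : x l = 0 := by
  have := (H887.mem_HomN.1 h.xN).1 l
  rwa [objA_bot hl, Submodule.mem_bot] at this

theorem sqC_bot {l : J} (h : 𝒟.C l = ⊥) : (sq 𝒟 g S).C l = ⊥ := by
  rw [sq_C, h, SQim_bot]

/-- `φ` over the nonzero columns -/
theorem HIn.φ_mem (h : H258.HIn 𝒟 g S x φ) :
    InK (nD g hn) (lvl (sq 𝒟 g S) n) (fun l => φ l) := by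
  refine inK_of_homN g hn (A := fun l => (sq 𝒟 g S).C l)
    (A' := fun l => perp (sq 𝒟 g S).q ((sq 𝒟 g S).C l)) (fun l _ => ?_) (fun l _ => ?_)
    (fun l h => sqC_bot h) ?_
  · exact lvl_F (𝒟 := sq 𝒟 g S) (s := 𝒟.arm l) (hn.c l)
  · exact lvl_perp (𝒟 := sq 𝒟 g S) (s := 𝒟.arm l) (hn.c l)
  · exact mem_K_iff'.1 h.φK

theorem HIn.φ_zero (h : H258.HIn 𝒟 g S x φ) {l : J} (hl : 𝒟.C l = ⊥) : φ l = 0 := by
  have := h.φK.1 l
  rwa [sqC_bot hl, Submodule.mem_bot] at this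

theorem HIn.φ_span' (h : H258.HIn 𝒟 g S x φ) {t : {l // 𝒟.C l ≠ ⊥} → SQ 𝒟.q S}
    (ht : InK (nD g hn) (lvl (sq 𝒟 g S) n) t) : ∃ a : L, ∀ l, t l = a • φ l := by
  have h1 := homN_of_inK g hn (A := fun l => (sq 𝒟 g S).C l)
    (A' := fun l => perp (sq 𝒟 g S).q ((sq 𝒟 g S).C l))
    (fun l _ => lvl_F (𝒟 := sq 𝒟 g S) (s := 𝒟.arm l) (hn.c l))
    (fun l _ => lvl_perp (𝒟 := sq 𝒟 g S) (s := 𝒟.arm l) (hn.c l))
    (fun l h => by rw [sqC_bot h]; exact perp_bot') ht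
  obtain ⟨a, ha⟩ := h.φ_span _ (mem_K_iff'.2 h1)
  refine ⟨a, fun l => ?_⟩
  rw [← ext0_val t l, ha]
  rfl

/-- `Hom(N, S^*) = C x` over the nonzero columns -/
theorem HIn.c_surj' (h : H258.HIn 𝒟 g S x φ) {z : {l // 𝒟.C l ≠ ⊥} → Dual L ↥S}
    (hz : InK (nD g hn) (lvlD 𝒟 n S) z) :
    ∃ d, LevSk (lvlS 𝒟 n S) d ∧ ∀ l : {l // 𝒟.C l ≠ ⊥}, z l = d (x l) := by
  have h1 := homN_of_inK g hn (A := fun l => (objB 𝒟 S l).dualAnnihilator)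
    (A' := fun l => (objA 𝒟 S l).dualAnnihilator) (fun l _ => ?_) (fun l _ => ?_)
    (fun l h => ?_) hz
  · obtain ⟨d, hd, hd'⟩ := h.c_surj _ h1
    refine ⟨d, (skF_iff g hn).1 hd, fun l => ?_⟩
    rw [← hd' l, ext0_val]
  · rw [lvlD, show (1 : ℤ) - (n + 1 - 𝒟.c l) = 𝒟.c l - n by ring, objB_eq hn]
  · rw [lvlD, show (1 : ℤ) - (𝒟.c l - n) = n + 1 - 𝒟.c l by ring, objA_eq hn]
  · rw [objA_bot h, Submodule.dualAnnihilator_bot]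

include hn in
theorem HIn.c_inj' (h : H258.HIn 𝒟 g S x φ) {d : ↥S →ₗ[L] Dual L ↥S}
    (hd : LevSk (lvlS 𝒟 n S) d)
    (h0 : ∀ l k : {l // 𝒟.C l ≠ ⊥}, d (x l) (x k) = 0) : d = 0 := by
  refine h.c_inj d ((skF_iff g hn).2 hd) fun l k => ?_
  by_cases hl : 𝒟.C l = ⊥
  · rw [HIn.x_zero h hl, map_zero]; rfl
  by_cases hk : 𝒟.C k = ⊥
  · rw [HIn.x_zero h hk, map_zero]
  exact h0 ⟨l, hl⟩ ⟨k, hk⟩

include hn in
theorem HIn.c_ne' (h : H258.HIn 𝒟 g S x φ) : ∃ d, LevSk (lvlS 𝒟 n S) d ∧ d ≠ 0 := by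
  obtain ⟨d, hd, hd0⟩ := h.c_ne
  exact ⟨d, (skF_iff g hn).1 hd, hd0⟩

/-- `Ext(S, M) = 0` with levels -/
theorem HIn.ext' (h : H258.HIn 𝒟 g S x φ) (Y : Fin 3 → (↥S →ₗ[L] SQ 𝒟.q S)) :
    ∃ (a : ↥S →ₗ[L] SQ 𝒟.q S) (b : Fin 3 → (↥S →ₗ[L] SQ 𝒟.q S)), (∀ s, Y s = a + b s) ∧
      ∀ s c, ∀ v ∈ lvlS 𝒟 n S s c, b s v ∈ lvl (sq 𝒟 g S) n s c := by
  obtain ⟨a, b, h1, h2, h3⟩ := h.ext Y
  refine ⟨a, b, h1, fun s c v hv => ?_⟩
  rw [mem_lvlS] at hv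
  rcases le_or_gt 1 c with hc | hc
  · rw [lvl_pos hc] at hv ⊢
    exact h2 s _ v hv
  · have hc' : c ≤ 0 := by omega
    rw [lvl_neg hc'] at hv ⊢
    exact h3 s _ v hv

/-- the Gram matrix of `φ` over the nonzero columns -/
def gq (g : 𝒟.Good) (S : Submodule L V) (φ : J → SQ 𝒟.q S) :
    Matrix {l // 𝒟.C l ≠ ⊥} {l // 𝒟.C l ≠ ⊥} L :=
  Matrix.of fun l m => (sq 𝒟 g S).q (φ l) (φ m)

omit [FiniteDimensional L V] [Fintype J] [CharZero L] in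
theorem gq_apply (l m : {l // 𝒟.C l ≠ ⊥}) : gq g S φ l m = (sq 𝒟 g S).q (φ l) (φ m) := rfl

theorem HIn.gq_symm (h : H258.HIn 𝒟 g S x φ) (l m : {l // 𝒟.C l ≠ ⊥}) :
    gq g S φ l m = gq g S φ m l := by
  rw [gq_apply, gq_apply]
  exact (good_sq g h.iso).form.symm _ _

theorem HIn.gq_arm (h : H258.HIn 𝒟 g S x φ) (l m : {l // 𝒟.C l ≠ ⊥})
    (hlm : 𝒟.arm l = 𝒟.arm m) : gq g S φ l m = 0 := by
  have gs := good_sq g h.iso
  have h1 : φ l ∈ (sq 𝒟 g S).F (𝒟.arm l) (𝒟.c l) := h.φK.1 l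
  have h2 : φ m ∈ (sq 𝒟 g S).F (𝒟.arm m) (𝒟.c m) := h.φK.1 m
  rw [← hlm] at h2
  exact F_le_perp gs _ _ _ h1 _ h2

theorem HIn.gq_sum (h : H258.HIn 𝒟 g S x φ) (l m : {l // 𝒟.C l ≠ ⊥})
    (hlm : 𝒟.arm l = 𝒟.arm m) (hc : 𝒟.c l ≤ 𝒟.c m) :
    ∑ j : {l // 𝒟.C l ≠ ⊥}, gq g S φ l j * 𝒟.Ω m j = 0 := by
  have gs := good_sq g h.iso
  have h1 : φ l ∈ (sq 𝒟 g S).C m := by
    have h1 : φ l ∈ (sq 𝒟 g S).F (𝒟.arm l) (𝒟.c l) := h.φK.1 l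
    have := gs.mono _ hc h1
    rw [hlm] at this
    exact this
  have h2 := h.φK.2 m
  have h3 : (sq 𝒟 g S).q (φ l) ((sq 𝒟 g S).om φ m) = 0 := by
    rw [gs.form.symm]
    exact h2 _ h1
  rw [Cfg.om, map_sum] at h3
  have h4 := sum_nz (𝒟 := 𝒟) (fun j => (sq 𝒟 g S).q (φ l) ((sq 𝒟 g S).Ω m j • φ j)) (fun j hj => by
    rw [HIn.φ_zero h hj, smul_zero, map_zero])
  rw [h4] at h3
  rw [← h3]
  refine Finset.sum_congr rfl fun j _ => ?_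
  rw [map_smul, smul_eq_mul, gq_apply, mul_comm]
  rfl

omit [FiniteDimensional L V] [Fintype J] [CharZero L] in
theorem lvl_le_perp (g : 𝒟.Good) {n : ℕ} {s : Fin 3} {a b : ℤ} (hab : 0 < a + b) (ha : 1 ≤ a) :
    lvl 𝒟 n s b ≤ perp 𝒟.q (lvl 𝒟 n s a) := by
  rw [lvl_pos ha]
  rcases le_or_gt 1 b with hb | hb
  · rw [lvl_pos hb]
    exact F_le_perp g s _ _
  · have hb' : b ≤ 0 := by omega
    rw [lvl_neg hb']
    exact perp_anti (g.mono s (by omega))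

/-- the alternative over the nonzero columns -/
theorem HIn.alt' (h : H258.HIn 𝒟 g S x φ) (n : ℕ) : (∃ l m, gq g S φ l m ≠ 0) ∨
    ∃ γ : Fin 2 → (SQ 𝒟.q S →ₗ[L] Dual L (SQ 𝒟.q S)), (∀ i u v, γ i u v = - γ i v u) ∧
      (∀ i (l m : {l // 𝒟.C l ≠ ⊥}), 𝒟.arm l = 𝒟.arm m → γ i (φ l) (φ m) = 0) ∧
      (∀ i (l m : {l // 𝒟.C l ≠ ⊥}), 𝒟.arm l = 𝒟.arm m → 𝒟.c l ≤ 𝒟.c m →
        ∑ j : {l // 𝒟.C l ≠ ⊥}, γ i (φ l) (φ j) * 𝒟.Ω m j = 0) ∧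
      (∀ a b : L, (∀ l m : {l // 𝒟.C l ≠ ⊥},
        a * γ 0 (φ l) (φ m) + b * γ 1 (φ l) (φ m) = 0) → a = 0 ∧ b = 0) ∧
      ∀ i s a b, 0 < a + b →
        ∀ u ∈ Submodule.span L (Set.range fun l : {l // 𝒟.C l ≠ ⊥} => φ l),
          ∀ v ∈ Submodule.span L (Set.range fun l : {l // 𝒟.C l ≠ ⊥} => φ l),
            u ∈ lvl (sq 𝒟 g S) n s a → v ∈ lvl (sq 𝒟 g S) n s b → γ i u v = 0 := by
  rcases h.alt with ⟨l, m, hlm⟩ | ⟨γ, h1, h2, h3, h5⟩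
  · left
    have hl : 𝒟.C l ≠ ⊥ := fun h0 => hlm (by rw [HIn.φ_zero h h0, map_zero]; rfl)
    have hm : 𝒟.C m ≠ ⊥ := fun h0 => hlm (by rw [HIn.φ_zero h h0, map_zero])
    exact ⟨⟨l, hl⟩, ⟨m, hm⟩, hlm⟩
  · right
    have hsp : Submodule.span L (Set.range fun l : {l // 𝒟.C l ≠ ⊥} => φ l) ≤
        Submodule.span L (Set.range φ) := by
      refine Submodule.span_mono ?_
      rintro _ ⟨l, rfl⟩
      exact ⟨l, rfl⟩
    have gs := good_sq g h.iso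
    have key : ∀ i s a b, 0 < a + b → 1 ≤ a →
        ∀ u ∈ Submodule.span L (Set.range fun l : {l // 𝒟.C l ≠ ⊥} => φ l),
          ∀ v ∈ Submodule.span L (Set.range fun l : {l // 𝒟.C l ≠ ⊥} => φ l),
            u ∈ lvl (sq 𝒟 g S) n s a → v ∈ lvl (sq 𝒟 g S) n s b → γ i u v = 0 := by
      intro i s a b hab ha u hu v hv hu' hv'
      have hv2 := lvl_le_perp gs hab ha hv'
      rw [lvl_pos ha] at hu' hv2
      exact h5 i s _ u (hsp hu) v (hsp hv) hu' hv2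
    refine ⟨γ, h1, fun i l m hlm => (h2 i).2.1 l m hlm, fun i l m hlm hc => ?_,
      fun a b hab => h3 a b fun l m => ?_, fun i s a b hab u hu v hv hu' hv' => ?_⟩
    · have h4 := (h2 i).2.2 l m hlm hc
      rw [sum_nz (𝒟 := 𝒟) _ (fun j hj => by
        rw [Matrix.of_apply, HIn.φ_zero h hj, map_zero, zero_mul])] at h4
      exact h4
    · by_cases hl : 𝒟.C l = ⊥
      · rw [HIn.φ_zero h hl, map_zero, map_zero]
        simp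
      by_cases hm : 𝒟.C m = ⊥
      · rw [HIn.φ_zero h hm, map_zero, map_zero]
        simp
      exact hab ⟨l, hl⟩ ⟨m, hm⟩
    · rcases le_or_gt 1 a with ha | ha
      · exact key i s a b hab ha u hu v hv hu' hv'
      · rw [h1, key i s b a (by omega) (by omega) v hv u hu hv' hu', neg_zero]

end obj

end Vale.Agent.P182.H361
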