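import Vale.Agent.P182.H361.SeenC
import Vale.Agent.P182.H361.Obj
import Vale.Agent.P182.H361.AltM
import Vale.Agent.P182.H250.HPP
import Vale.Agent.P182.H250.N4c
import Vale.Agent.P182.H668.AltV

/-!
# From the constants to the bundles: `HIn` gives `Inp` and `Alt`
-/

namespace Vale.Agent.P182.H361

open LinearMap Submodule Module TensorProduct Polynomial
open Vale.Agent.P182 Vale.Agent.P182.H430 Vale.Agent.P182.H388 Vale.Agent.P182.H735
  Vale.Agent.P182.H578 Vale.Agent.P182.H250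

section const

variable {k : Type*} [Field k] {J : Type*} [Fintype J] {S M : Type*} [AddCommGroup S]
  [Module k S] [AddCommGroup M] [Module k M]

/-- input (H) in constants, with levels, over the nonzero columns -/
structure ConstIn (X : NData k J) (𝒢 : Fl3 k X.n S) (ℋ : Fl3 k X.n M)
    (q : M →ₗ[k] M →ₗ[k] k) (x : J → S) (φ : J → M) : Prop where
  symm : ∀ u v, q u v = q v u
  nd : ∀ u, (∀ v, q u v = 0) → u = 0
  dual : ∀ s a v, v ∈ ℋ.G s a ↔ ∀ w ∈ ℋ.G s (1 - a), q v w = 0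
  mx : InK X 𝒢.G x
  mφ : InK X ℋ.G φ
  hφ : ∀ t, InK X ℋ.G t → ∃ a : k, ∀ l, t l = a • φ l
  ext : ∀ Y : Fin 3 → (S →ₗ[k] M), ∃ (a : S →ₗ[k] M) (b : Fin 3 → (S →ₗ[k] M)),
    (∀ s, Y s = a + b s) ∧ ∀ s c, ∀ v ∈ 𝒢.G s c, b s v ∈ ℋ.G s c
  hC : ∃ d, LevSk 𝒢.G d ∧ d ≠ 0
  hz : ∀ z : J → Dual k S, (∀ l, ∀ v ∈ 𝒢.G (X.arm l) (X.c l - X.n), z l v = 0) →
    (∀ l, ∀ v ∈ 𝒢.G (X.arm l) (X.n + 1 - X.c l), ∑ m, X.Ω l m * z m v = 0) →
      ∃ d, LevSk 𝒢.G d ∧ ∀ l, z l = d (x l)
  inj : ∀ d, LevSk 𝒢.G d → (∀ l m, d (x l) (x m) = 0) → d = 0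
  gq0 : ∀ l m, X.arm l = X.arm m → q (φ l) (φ m) = 0
  gq1 : ∀ l m, X.arm l = X.arm m → X.c l ≤ X.c m → ∑ j, q (φ l) (φ j) * X.Ω m j = 0
  alt : (∃ l m, q (φ l) (φ m) ≠ 0) ∨
    ∃ γ : Fin 2 → (M →ₗ[k] M →ₗ[k] k), (∀ i u v, γ i u v = - γ i v u) ∧
      (∀ i l m, X.arm l = X.arm m → γ i (φ l) (φ m) = 0) ∧
      (∀ i l m, X.arm l = X.arm m → X.c l ≤ X.c m → ∑ j, γ i (φ l) (φ j) * X.Ω m j = 0) ∧
      (∀ a b : k, (∀ l m, a * γ 0 (φ l) (φ m) + b * γ 1 (φ l) (φ m) = 0) → a = 0 ∧ b = 0) ∧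
      ∀ i s a b, 0 < a + b → ∀ u ∈ Submodule.span k (Set.range φ),
        ∀ v ∈ Submodule.span k (Set.range φ), u ∈ ℋ.G s a → v ∈ ℋ.G s b → γ i u v = 0

end const

section main

variable {k : Type*} [Field k] [IsAlgClosed k] {J : Type*} [Fintype J] [DecidableEq J]
  {S M : Type*} [AddCommGroup S] [Module k S] [AddCommGroup M] [Module k M]
  [FiniteDimensional k S] [FiniteDimensional k M]
  {X : NData k J} {𝒢 : Fl3 k X.n S} {ℋ : Fl3 k X.n M} {q : M →ₗ[k] M →ₗ[k] k}
  {x : J → S} {φ : J → M}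
  {F : Type*} [Field F] [Algebra k[X] F] [IsFractionRing k[X] F]
  [Algebra k F] [IsScalarTower k k[X] F]

/-- a constant form on the image of a family of constants -/
theorem form_cmap (γ : M →ₗ[k] M →ₗ[k] k) (x y : J → F) :
    (LinearMap.BilinForm.baseChange F γ : LinearMap.BilinForm F (F ⊗[k] M))
      (NData.cmap F φ x) (NData.cmap F φ y) =
      NData.gform F (Matrix.of fun l m => γ (φ l) (φ m)) x y := by
  rw [NData.cmap_apply, NData.cmap_apply, NData.gform_apply, LinearMap.map_sum₂]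
  refine Finset.sum_congr rfl fun l _ => ?_
  rw [map_sum]
  refine Finset.sum_congr rfl fun m _ => ?_
  rw [map_smul, map_smul, LinearMap.smul_apply, one_form, smul_eq_mul, smul_eq_mul,
    Matrix.of_apply]
  ring

theorem orthS_N (hdet : IsUnit X.Om'.det) : OrthS X.kap (X.N F) (X.b F) :=
  ⟨fun p _ _ => X.N_self hdet p, X.b_symm F, X.b_nondeg hdet⟩

theorem nil_N (hdet : IsUnit X.Om'.det) (h2 : (2 : k) ≠ 0) (hΩ : X.VersΩ) (ε : F)
    (hε : ε = 1 ∨ ε = -1) (Θ : (J → F) →ₗ[F] (J → F)) (hΘ : Θ ∈ adj (X.b F) ε)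
    (hk : KMor X.kap (X.N F) (X.N F) Θ) (hn : IsNilpotent Θ) : Θ = 0 := by
  rcases hε with rfl | rfl
  · exact X.noNil hdet h2 hΩ (fun x y => by rw [hΘ x y, one_mul]) hk hn
  · exact X.noNilSkew hdet h2 hΩ (fun x y => by rw [hΘ x y, neg_one_mul]) hk hn

/-- the form `γ(φ, φ)` sees only the levels of `M` -/
theorem gform_seen (hm : InK X ℋ.G φ) {γ : M →ₗ[k] M →ₗ[k] k}
    (hγ : ∀ s a b, 0 < a + b → ∀ u ∈ Submodule.span k (Set.range φ),
        ∀ v ∈ Submodule.span k (Set.range φ), u ∈ ℋ.G s a → v ∈ ℋ.G s b → γ u v = 0)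
    {p : Option k} {a c : ℤ} (hac : ((X.cb F ℋ).ch p).L a ≤ ((X.cb F ℋ).ch p).L c)
    {x y : J → F} (hx : x ∈ ((X.N F).ch p).L a) {d : ℤ} (hy : y ∈ ((X.N F).ch p).L d) :
    NData.gform F (Matrix.of fun l m => γ (φ l) (φ m)) x y ∈
      ((X.cur F).pl p).M ((X.cur F).per p) (c + d) := by
  let R : Submodule k M := Submodule.span k (Set.range φ)
  let φR : J → ↥R := fun l => ⟨φ l, Submodule.subset_span ⟨l, rfl⟩⟩
  let γR : ↥R →ₗ[k] ↥R →ₗ[k] k := γ.domRestrict₁₂ R R
  have hγR : ∀ u v : ↥R, γR u v = γ u v := fun u v => rfl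
  have hmR : InK X (fl3Res ℋ R).G φR := by
    refine ⟨fun l => hm.1 l, fun l => ?_⟩
    rw [fl3Res_G, Submodule.mem_comap, Submodule.subtype_apply, Submodule.coe_sum]
    exact hm.2 l
  have hMor : NData.cmap F φR ∈ HZ ((X.N F).hom (X.cb F (fl3Res ℋ R))).lat :=
    (X.hom_N_const (fl3Res ℋ R)).2 ⟨φR, rfl, hmR⟩
  have hMor' : Mor (X.N F) (X.cb F (fl3Res ℋ R)) (NData.cmap F φR) := mor_iff.2 hMor
  have e1 : NData.gform F (Matrix.of fun l m => γ (φ l) (φ m)) x y =
      (LinearMap.BilinForm.baseChange F γR : LinearMap.BilinForm F (F ⊗[k] ↥R))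
        (NData.cmap F φR x) (NData.cmap F φR y) := by
    rw [form_cmap]
    rfl
  rw [e1]
  refine ((X.fl F (fl3Res ℋ R)).bil_mem_iff (hw := X.w0_fin)).2 ?_ c d _ _
    (cb_le_res ℋ R hac (hMor' p a x hx)) (hMor' p d y hy)
  intro a b hab u hu v hv
  rw [X.fl_G F, Gp_res, Submodule.mem_comap] at hu hv
  rw [hγR]
  by_cases hp : X.Marked p
  · obtain ⟨s, rfl⟩ := hp
    rw [X.Gp_z] at hu hv
    exact hγ s a b hab _ u.2 _ v.2 hu hv
  · rw [X.Gp_unmarked ℋ hp] at hu hv
    by_cases h3 : a ≤ 0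
    · rw [if_neg (by omega), Submodule.mem_bot] at hv
      rw [Submodule.subtype_apply] at hv
      rw [hv, map_zero]
    · rw [if_neg h3, Submodule.mem_bot] at hu
      rw [Submodule.subtype_apply] at hu
      rw [hu, map_zero]
      rfl

/-- the alternative for the bundles -/
theorem ConstIn.alt' (h : ConstIn X 𝒢 ℋ q x φ) (hdet : IsUnit X.Om'.det) :
    AltM X.kap (X.N F) (X.cb F ℋ) (X.b F)
      (LinearMap.BilinForm.baseChange F q : LinearMap.BilinForm F (F ⊗[k] M))
      (NData.cmap F φ) := by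
  rcases h.alt with ⟨l, m, hlm⟩ | ⟨γ, h1, h2, h3, h4, h5⟩
  · left
    intro φs hs h0
    have e1 : X.b F (φs (NData.cmap F φ (NData.ev (k := k) F l))) (NData.ev (k := k) F m) = 0 := by
      have := LinearMap.congr_fun h0 (NData.ev (k := k) F l)
      rw [LinearMap.comp_apply, LinearMap.zero_apply] at this
      rw [this, map_zero, LinearMap.zero_apply]
    rw [hs, NData.cmap_ev, NData.cmap_ev, one_form] at e1
    exact hlm ((map_eq_zero_iff _ (algebraMap k F).injective).1 e1)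
  · right
    let g : Fin 2 → Matrix J J k := fun i => Matrix.of fun l m => γ i (φ l) (φ m)
    have hg : ∀ i l m, g i l m = - g i m l := fun i l m => h1 i _ _
    refine ⟨fun i => X.thg F (g i), fun i => ?_, fun i p a c hac e he => ?_,
      fun i e he => ?_, ?_⟩
    · intro e e'
      rw [X.b_symm F e, X.b_thg_skew hdet (hg i), X.b_thg_skew hdet (hg i),
        NData.gform_skew (hg i) e' e]
      ring
    · rw [X.N_self hdet]
      intro d y hy
      rw [X.b_thg_skew hdet (hg i)]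
      exact Submodule.neg_mem _ (Place.M_anti _ (by linarith)
        (gform_seen h.mφ (h5 i) hac he hy))
    · refine X.b_nondeg hdet _ fun y => ?_
      rw [X.b_thg_skew hdet (hg i), ← form_cmap, he, map_zero, LinearMap.zero_apply, neg_zero]
    · rw [Fintype.linearIndependent_iff]
      intro c hc
      rw [Fin.sum_univ_two] at hc
      have h5 : ∀ l m, c 0 * γ 0 (φ l) (φ m) + c 1 * γ 1 (φ l) (φ m) = 0 := by
        intro l m
        have e1 := LinearMap.congr_fun hc (NData.ev (k := k) F l)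
        rw [LinearMap.add_apply, LinearMap.smul_apply, LinearMap.smul_apply,
          LinearMap.zero_apply] at e1
        have e2 : ∀ i, X.b F (X.thg F (g i) (NData.ev (k := k) F l)) (NData.ev (k := k) F m) =
            - algebraMap k F (γ i (φ l) (φ m)) := by
          intro i
          rw [X.b_thg_skew hdet (hg i), ← form_cmap, NData.cmap_ev, NData.cmap_ev, one_form]
        have e3 := congrArg (fun w => X.b F w (NData.ev (k := k) F m)) e1
        simp only [map_add, LinearMap.add_apply, map_zero, LinearMap.zero_apply] at e3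
        rw [← algebraMap_smul F (c 0), ← algebraMap_smul F (c 1), map_smul, map_smul,
          LinearMap.smul_apply, LinearMap.smul_apply, e2, e2, smul_eq_mul, smul_eq_mul] at e3
        apply (algebraMap k F).injective
        rw [map_add, map_mul, map_mul, map_zero]
        linear_combination -e3
      obtain ⟨h6, h7⟩ := h4 _ _ h5
      intro i
      fin_cases i
      · exact h6
      · exact h7

/-- the alternative for the bundles, in the form of the endgame -/
theorem ConstIn.altV (h : ConstIn X 𝒢 ℋ q x φ) :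
    H668.AltV (fun _ => 0) (X.cb F ℋ)
      (LinearMap.BilinForm.baseChange F q : LinearMap.BilinForm F (F ⊗[k] M))
      (NData.cmap F φ) := by
  rcases h.alt with ⟨l, m, hlm⟩ | ⟨γ, h1, h2, h3, h4, h5⟩
  · left
    refine ⟨NData.ev (k := k) F l, NData.ev (k := k) F m, fun h0 => hlm ?_⟩
    rw [NData.cmap_ev, NData.cmap_ev, one_form] at h0
    exact (map_eq_zero_iff _ (algebraMap k F).injective).1 h0
  · right
    let R : Submodule k M := Submodule.span k (Set.range φ)
    let φR : J → ↥R := fun l => ⟨φ l, Submodule.subset_span ⟨l, rfl⟩⟩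
    let γR : Fin 2 → (↥R →ₗ[k] ↥R →ₗ[k] k) := fun i => (γ i).domRestrict₁₂ R R
    have hγR : ∀ i, ∀ u v : ↥R, γR i u v = γ i u v := fun i u v => rfl
    let β : Fin 2 → LinearMap.BilinForm F (J → F) := fun i =>
      (LinearMap.BilinForm.baseChange F (γR i) :
        LinearMap.BilinForm F (F ⊗[k] ↥R)).compl₁₂ (NData.cmap F φR) (NData.cmap F φR)
    have hβ : ∀ i u v, β i u v =
      (LinearMap.BilinForm.baseChange F (γR i) : LinearMap.BilinForm F (F ⊗[k] ↥R))
        (NData.cmap F φR u) (NData.cmap F φR v) := fun i u v => rfl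
    have hβe : ∀ i l m, β i (NData.ev (k := k) F l) (NData.ev (k := k) F m) =
        algebraMap k F (γ i (φ l) (φ m)) := by
      intro i l m
      rw [hβ, NData.cmap_ev, NData.cmap_ev, one_form, hγR]
    have hsub : ∀ u : J → F, R.subtype.baseChange F (NData.cmap F φR u) = NData.cmap F φ u := by
      intro u
      have : (R.subtype.baseChange F) ∘ₗ (NData.cmap F φR) = NData.cmap F φ := by
        refine NData.ext_ev (k := k) fun l => ?_
        rw [LinearMap.comp_apply, NData.cmap_ev, NData.cmap_ev, LinearMap.baseChange_tmul]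
        rfl
      exact LinearMap.congr_fun this u
    refine ⟨β, fun i u v => ?_, fun i p a b u v hu hv => ?_, ?_⟩
    · have key : (LinearMap.BilinForm.baseChange F (γR i) : LinearMap.BilinForm F (F ⊗[k] ↥R)) =
          - (LinearMap.BilinForm.baseChange F (γR i)).flip := by
        refine ext_one fun u => ext_one fun v => ?_
        rw [one_form]
        show _ = -(LinearMap.BilinForm.baseChange F (γR i)) ((1 : F) ⊗ₜ[k] v) ((1 : F) ⊗ₜ[k] u)
        rw [one_form, hγR, hγR, h1, map_neg]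
      rw [hβ, hβ]
      exact LinearMap.congr_fun (LinearMap.congr_fun key _) _
    · rw [hβ]
      rw [← hsub, ← mem_cb_res] at hu hv
      rw [sub_zero]
      refine ((X.fl F (fl3Res ℋ R)).bil_mem_iff (hw := X.w0_fin)).2 ?_ a b _ _ hu hv
      intro a b hab u hu v hv
      rw [X.fl_G F, Gp_res, Submodule.mem_comap] at hu hv
      rw [hγR]
      by_cases hp : X.Marked p
      · obtain ⟨s, rfl⟩ := hp
        rw [X.Gp_z] at hu hv
        exact h5 i s a b hab _ u.2 _ v.2 hu hv
      · rw [X.Gp_unmarked ℋ hp] at hu hv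
        by_cases h3 : a ≤ 0
        · rw [if_neg (by omega), Submodule.mem_bot] at hv
          rw [Submodule.subtype_apply] at hv
          rw [hv, map_zero]
        · rw [if_neg h3, Submodule.mem_bot] at hu
          rw [Submodule.subtype_apply] at hu
          rw [hu, map_zero]
          rfl
    · rw [Fintype.linearIndependent_iffₛ]
      intro c c' hc
      rw [Fin.sum_univ_two, Fin.sum_univ_two] at hc
      have h6 : ∀ l m, (c 0 - c' 0) * γ 0 (φ l) (φ m) + (c 1 - c' 1) * γ 1 (φ l) (φ m) = 0 := by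
        intro l m
        have e1 := LinearMap.congr_fun (LinearMap.congr_fun hc (NData.ev (k := k) F l))
          (NData.ev (k := k) F m)
        simp only [LinearMap.add_apply, LinearMap.smul_apply, hβe, Algebra.smul_def,
          ← map_mul, ← map_add] at e1
        have e2 := (algebraMap k F).injective e1
        linear_combination e2
      obtain ⟨h7, h8⟩ := h4 _ _ h6
      intro i
      fin_cases i
      · exact sub_eq_zero.1 h7
      · exact sub_eq_zero.1 h8

/-- INPUT (H) FOR THE BUNDLES -/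
theorem ConstIn.inp (h : ConstIn X 𝒢 ℋ q x φ) (hdet : IsUnit X.Om'.det) (h2 : (2 : k) ≠ 0)
    (hΩ : X.VersΩ) :
    Inp X.kap (X.N F) (X.b F) (X.cb F ℋ)
      (LinearMap.BilinForm.baseChange F q : LinearMap.BilinForm F (F ⊗[k] M)) (X.cb F 𝒢)
      (NData.cmap F x) (NData.cmap F φ) := by
  have oN := orthS_N (F := F) hdet
  have oM : OrthS (fun _ => 0) (X.cb F ℋ)
    (LinearMap.BilinForm.baseChange F q : LinearMap.BilinForm F (F ⊗[k] M)) :=
    orthS_of ℋ h.symm h.nd h.dual
  have hnil := nil_N (F := F) hdet h2 hΩ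
  have mφ : Mor (X.N F) (X.cb F ℋ) (NData.cmap F φ) :=
    mor_iff.2 ((X.hom_N_const ℋ).2 ⟨φ, rfl, h.mφ⟩)
  refine ⟨X.dualizing F, oN, oM, hnil, mor_iff.2 ((X.hom_N_const 𝒢).2 ⟨x, rfl, h.mx⟩), mφ,
    fun f hf => ?_, phiphi_of_alt oN oM hnil mφ (h.alt' hdet).alt, noExt_of 𝒢 ℋ h.ext, ?_, ?_, ?_⟩
  · obtain ⟨t, rfl, ht⟩ := (X.hom_N_const ℋ).1 (mor_iff.1 hf)
    obtain ⟨a, ha⟩ := h.hφ t ht
    refine ⟨a, NData.ext_ev (k := k) fun l => ?_⟩
    rw [LinearMap.smul_apply, NData.cmap_ev, NData.cmap_ev, ha l, tmul_smul]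
  · obtain ⟨d, hd, hd0⟩ := h.hC
    refine ⟨LinearMap.BilinForm.baseChange F d, (form_iff 𝒢).2 ⟨d, rfl, hd.1, hd.2⟩, ?_⟩
    intro h0
    apply hd0
    ext u v
    apply (algebraMap k F).injective
    rw [← one_form, h0, LinearMap.zero_apply, LinearMap.zero_apply, LinearMap.zero_apply,
      LinearMap.zero_apply, map_zero]
  · intro z hz
    have hz1 : z ∈ HZ ((X.N F).hom (X.cb F 𝒢).dual).lat := by
      rw [mem_HZ]
      intro p a e he c u hu
      have := hz p a c e u he hu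
      rw [add_zero]
      rwa [add_comm] at this
    obtain ⟨y, hy, hy1, hy2⟩ := (X.hom_N_dual 𝒢).1 hz1
    obtain ⟨d, hd, hyd⟩ := h.hz y hy1 hy2
    refine ⟨LinearMap.BilinForm.baseChange F d, (form_iff 𝒢).2 ⟨d, rfl, hd.1, hd.2⟩, ?_⟩
    have key : z = (LinearMap.BilinForm.baseChange F d : LinearMap.BilinForm F (F ⊗[k] S)) ∘ₗ
        (NData.cmap F x) := by
      refine NData.ext_ev (k := k) fun l => ext_one fun v => ?_
      rw [hy, LinearMap.comp_apply, NData.cmap_ev, one_form, hyd]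
    intro e u
    rw [key]
    rfl
  · intro c hc h0
    obtain ⟨d, rfl, hd1, hd2⟩ := (form_iff 𝒢).1 hc
    have : d = 0 := by
      refine h.inj d ⟨hd1, hd2⟩ fun l m => ?_
      have h3 := h0 (NData.ev (k := k) F l) (NData.ev (k := k) F m)
      rw [NData.cmap_ev, NData.cmap_ev, one_form] at h3
      exact (map_eq_zero_iff _ (algebraMap k F).injective).1 h3
    rw [this]
    refine ext_one fun u => ext_one fun v => ?_
    rw [one_form]
    simp

end main

end Vale.Agent.P182.H361
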