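import Vale.Agent.P182.H735.Input

/-!
# The alternative in the input of the exclusion of (B2), at the level of bundles
-/

namespace Vale.Agent.P182.H361

open LinearMap Submodule Module Vale.Agent.P182 Vale.Agent.P182.H430 Vale.Agent.P182.H388
  Vale.Agent.P182.H578 Vale.Agent.P182.H735

variable {k F P : Type*} [Field k] [Field F] [Algebra k F] {C : Curve k F P}
variable {E : Type*} [AddCommGroup E] [Module F E] [Module k E] [IsScalarTower k F E]
variable {W : Type*} [AddCommGroup W] [Module F W] [Module k W] [IsScalarTower k F W]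

/-- either `φ^* φ ≠ 0`, or there are two independent skew Higgs fields of `N` which kill `ker φ` -/
def Alt (κ : P → ℤ) (N : Bun C E) (b : LinearMap.BilinForm F E) (q : LinearMap.BilinForm F W)
    (φ : E →ₗ[F] W) : Prop :=
  (∀ φs : W →ₗ[F] E, (∀ w e, b (φs w) e = q w (φ e)) → φs ∘ₗ φ ≠ 0) ∨
    ∃ h : Fin 2 → (E →ₗ[F] E), (∀ i, h i ∈ adj b (-1)) ∧ (∀ i, KMor κ N N (h i)) ∧
      (∀ i e, φ e = 0 → h i e = 0) ∧ LinearIndependent k h

end Vale.Agent.P182.H361
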