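import Vale.Agent.P182.H361.Lvl

/-!
# Restriction to the nonzero columns
-/

namespace Vale.Agent.P182.H361

open Module Matrix Vale.Agent.P182.H533 Vale.Agent.P182.B1 Vale.Agent.P182.H62
open Vale.Agent.P182.H430 hiding perp

universe u v w

section nd

variable {L : Type u} {V : Type v} {J : Type w} [Field L] [AddCommGroup V] [Module L V]
  {𝒟 : Cfg L V J}

theorem c_pos (g : 𝒟.Good) {l : J} (h : 𝒟.C l ≠ ⊥) : 1 ≤ 𝒟.c l := by
  rw [Nat.one_le_iff_ne_zero]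
  intro h0
  apply h
  show 𝒟.F (𝒟.arm l) (𝒟.c l) = ⊥
  rw [h0, g.zero]

/-- a bound for the column heights and for the flags -/
structure Bd (𝒟 : Cfg L V J) (n : ℕ) : Prop where
  c : ∀ l, 𝒟.c l ≤ n
  F : ∀ s i, n ≤ i → 𝒟.F s i = 𝒟.F s n

theorem exists_bd [FiniteDimensional L V] [Fintype J] (g : 𝒟.Good) : ∃ n, Bd 𝒟 n := by
  have h1 : ∀ s, ∃ n, ∀ m, n ≤ m → 𝒟.F s n = 𝒟.F s m := by
    intro s
    exact monotone_stabilizes_iff_noetherian.2 inferInstance ⟨𝒟.F s, g.mono s⟩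
  choose n0 hn0 using h1
  refine ⟨max (Finset.univ.sup 𝒟.c) (Finset.univ.sup n0), ⟨fun l => ?_, fun s i hi => ?_⟩⟩
  · exact (Finset.le_sup (Finset.mem_univ l)).trans (le_max_left _ _)
  · have h2 : n0 s ≤ max (Finset.univ.sup 𝒟.c) (Finset.univ.sup n0) :=
      (Finset.le_sup (Finset.mem_univ s)).trans (le_max_right _ _)
    rw [← hn0 s _ h2, ← hn0 s i (h2.trans hi)]

open Classical in
/-- the data on the nonzero columns -/
noncomputable def nD [CharZero L] [Fintype J] (g : 𝒟.Good) {n : ℕ} (hn : Bd 𝒟 n) :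
    NData L {l // 𝒟.C l ≠ ⊥} where
  n := n
  z := ![0, 1, -1]
  hz := by
    intro i j h
    have h11 : (1 : L) ≠ -1 := fun e => by
      have h2 : (2 : L) = 0 := by linear_combination e
      exact two_ne_zero h2
    fin_cases i <;> fin_cases j <;> simp at h ⊢
    · exact h11 h
    · exact h11 h.symm
  arm l := 𝒟.arm l
  c l := 𝒟.c l
  hc1 l := c_pos g l.2
  hcn l := hn.c l
  Ω l m := 𝒟.Ω l m
  skew l m := by
    have := congrFun (congrFun g.skew m.1) l.1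
    rw [Matrix.transpose_apply, Matrix.neg_apply] at this
    exact this

section

variable [CharZero L] [Fintype J] (g : 𝒟.Good) {n : ℕ} (hn : Bd 𝒟 n)

theorem nD_n : (nD g hn).n = n := rfl
theorem nD_arm (l) : (nD g hn).arm l = 𝒟.arm l := rfl
theorem nD_c (l) : (nD g hn).c l = 𝒟.c l := rfl
theorem nD_Ω (l m) : (nD g hn).Ω l m = 𝒟.Ω l m := rfl

theorem nD_vers (hV : 𝒟.Versal) : (nD g hn).VersΩ := by
  classical
  intro η hη
  let η' : Matrix J J L := Matrix.of fun l m =>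
    if h : 𝒟.C l ≠ ⊥ ∧ 𝒟.C m ≠ ⊥ then η ⟨l, h.1⟩ ⟨m, h.2⟩ else 0
  have hη0 : ∀ l m, η' l m = if h : 𝒟.C l ≠ ⊥ ∧ 𝒟.C m ≠ ⊥ then η ⟨l, h.1⟩ ⟨m, h.2⟩ else 0 :=
    fun l m => rfl
  have hη' : η'ᵀ = -η' := by
    ext l m
    rw [Matrix.transpose_apply, Matrix.neg_apply, hη0, hη0]
    by_cases h : 𝒟.C l ≠ ⊥ ∧ 𝒟.C m ≠ ⊥
    · rw [dif_pos h, dif_pos h.symm, hη]
    · rw [dif_neg h, dif_neg (fun h' => h h'.symm), neg_zero]
  obtain ⟨d, hd, hdΩ⟩ := H578.vder_of_versal hV η' hη'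
  have hd1 : d 1 = 0 := by
    have := hd 1 1
    rw [mul_one, mul_one, one_mul] at this
    exact left_eq_add.1 this
  let δ : Derivation ℤ L L := Derivation.mk' d.toIntLinearMap (fun a b => by
    show d (a * b) = a • d b + b • d a
    rw [hd, smul_eq_mul, smul_eq_mul]
    ring)
  have hδ : ∀ x, δ x = d x := fun x => rfl
  refine ⟨⟨δ, ?_⟩, ?_⟩
  · intro s
    fin_cases s
    · exact map_zero d
    · exact hd1
    · show d (-1) = 0
      rw [map_neg, hd1, neg_zero]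
  · intro l m
    show d (𝒟.Ω l m) = η l m
    rw [hdΩ, hη0, dif_pos ⟨l.2, m.2⟩]

open Classical in
theorem nD_det [FiniteDimensional L V] (hV : 𝒟.Versal) (hS : 𝒟.Semistable) :
    IsUnit (nD g hn).Om'.det := by
  refine (nD g hn).det_unit two_ne_zero (nD_vers g hn hV) ?_
  intro s
  have h1 := H578.card_of_semistable g hS s
  have e1 : Fintype.card {l // 𝒟.C l ≠ ⊥} = (Finset.univ.filter fun l => 𝒟.C l ≠ ⊥).card :=
    Fintype.card_subtype _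
  have e2 : Fintype.card {l // (nD g hn).arm l = s} =
      (Finset.univ.filter fun l => 𝒟.C l ≠ ⊥ ∧ 𝒟.arm l = s).card := by
    rw [← Fintype.card_subtype]
    exact Fintype.card_congr (Equiv.subtypeSubtypeEquivSubtypeInter (fun l => 𝒟.C l ≠ ⊥)
      (fun l => 𝒟.arm l = s))
  rw [e1, e2]
  exact h1

end

end nd

section hom

variable {L : Type u} {V : Type v} {J : Type w} [Field L] [AddCommGroup V] [Module L V]
  {𝒟 : Cfg L V J} [CharZero L] [Fintype J] (g : 𝒟.Good) {n : ℕ} (hn : Bd 𝒟 n)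
variable {B : Type*} [AddCommGroup B] [Module L B]

/-- `Hom(N, B)` in constants, over the nonzero columns -/
def InK {J' : Type*} [Fintype J'] (X : NData L J') (G : Fin 3 → ℤ → Submodule L B) (t : J' → B) :
    Prop :=
  (∀ l, t l ∈ G (X.arm l) (X.n + 1 - X.c l)) ∧
    ∀ l, ∑ k, X.Ω l k • t k ∈ G (X.arm l) (X.c l - X.n)

open Classical in
/-- extension by zero -/
noncomputable def ext0 (𝒟 : Cfg L V J) (t : {l // 𝒟.C l ≠ ⊥} → B) (l : J) : B :=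
  if h : 𝒟.C l ≠ ⊥ then t ⟨l, h⟩ else 0

theorem ext0_val (t : {l // 𝒟.C l ≠ ⊥} → B) (l : {l // 𝒟.C l ≠ ⊥}) : ext0 𝒟 t l = t l :=
  dif_pos l.2

theorem ext0_zero (t : {l // 𝒟.C l ≠ ⊥} → B) {l : J} (h : 𝒟.C l = ⊥) : ext0 𝒟 t l = 0 :=
  dif_neg (not_not.2 h)

open Classical in
theorem sum_nz {A : Type*} [AddCommMonoid A] (f : J → A) (h : ∀ l, 𝒟.C l = ⊥ → f l = 0) :
    ∑ l, f l = ∑ l : {l // 𝒟.C l ≠ ⊥}, f l := by
  rw [← Fintype.sum_subtype_add_sum_subtype (fun l => 𝒟.C l ≠ ⊥) f]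
  have : ∑ i : {x // ¬ 𝒟.C x ≠ ⊥}, f i = 0 :=
    Finset.sum_eq_zero fun i _ => h i (not_not.1 i.2)
  rw [this, add_zero]

variable {G : Fin 3 → ℤ → Submodule L B} {A A' : J → Submodule L B}

theorem inK_of_homN (hA : ∀ l, 𝒟.C l ≠ ⊥ → G (𝒟.arm l) (n + 1 - 𝒟.c l) = A l)
    (hA' : ∀ l, 𝒟.C l ≠ ⊥ → G (𝒟.arm l) (𝒟.c l - n) = A' l)
    (h0 : ∀ l, 𝒟.C l = ⊥ → A l = ⊥) {x : J → B} (hx : x ∈ H887.HomN 𝒟.Ω A A') :
    InK (nD g hn) G (fun l => x l) := by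
  rw [H887.mem_HomN] at hx
  refine ⟨fun l => ?_, fun l => ?_⟩
  · show x l ∈ G (𝒟.arm l) (n + 1 - 𝒟.c l)
    rw [hA l l.2]
    exact hx.1 l
  · show ∑ k : {l // 𝒟.C l ≠ ⊥}, 𝒟.Ω l k • x k ∈ G (𝒟.arm l) (𝒟.c l - n)
    rw [hA' l l.2, ← sum_nz (𝒟 := 𝒟) (fun k => 𝒟.Ω l k • x k)]
    · have := hx.2 l
      rwa [H887.omM_apply] at this
    · intro k hk
      have := hx.1 k
      rw [h0 k hk, Submodule.mem_bot] at this
      rw [this, smul_zero]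

theorem homN_of_inK (hA : ∀ l, 𝒟.C l ≠ ⊥ → G (𝒟.arm l) (n + 1 - 𝒟.c l) = A l)
    (hA' : ∀ l, 𝒟.C l ≠ ⊥ → G (𝒟.arm l) (𝒟.c l - n) = A' l)
    (h0 : ∀ l, 𝒟.C l = ⊥ → A' l = ⊤) {t : {l // 𝒟.C l ≠ ⊥} → B} (ht : InK (nD g hn) G t) :
    ext0 𝒟 t ∈ H887.HomN 𝒟.Ω A A' := by
  rw [H887.mem_HomN]
  refine ⟨fun l => ?_, fun l => ?_⟩
  · by_cases h : 𝒟.C l = ⊥
    · rw [ext0_zero t h]
      exact zero_mem _
    · have h1 : t ⟨l, h⟩ ∈ G (𝒟.arm l) (n + 1 - 𝒟.c l) := ht.1 ⟨l, h⟩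
      rw [hA l h] at h1
      rwa [← ext0_val t ⟨l, h⟩] at h1
  · by_cases h : 𝒟.C l = ⊥
    · rw [h0 l h]
      trivial
    · have h1 : ∑ k : {l // 𝒟.C l ≠ ⊥}, 𝒟.Ω l k • t k ∈ G (𝒟.arm l) (𝒟.c l - n) := ht.2 ⟨l, h⟩
      rw [H887.omM_apply, sum_nz (𝒟 := 𝒟) (fun k => 𝒟.Ω l k • ext0 𝒟 t k)]
      · rw [hA' l h] at h1
        simp only [ext0_val]
        exact h1
      · intro k hk
        rw [ext0_zero t hk, smul_zero]

end hom

end Vale.Agent.P182.H361
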