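import Vale.Agent.P182.H430.CN
import Vale.Agent.P182.H430.NConst
import Vale.Agent.P182.H735.Basic

/-!
# Constant flagged spaces over the curve of `NData`: global skew forms, `Ext`, perfect forms
-/

namespace Vale.Agent.P182.H361

open LinearMap Submodule Module TensorProduct Polynomial
open Vale.Agent.P182 Vale.Agent.P182.H430 Vale.Agent.P182.H388 Vale.Agent.P182.H735

section fl

variable {k : Type*} [Field k] [IsAlgClosed k] {J : Type*} [Fintype J] [DecidableEq J]
  {X : NData k J} {F : Type*} [Field F] [Algebra k[X] F] [IsFractionRing k[X] F]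
  [Algebra k F] [IsScalarTower k k[X] F]
variable {B : Type*} [AddCommGroup B] [Module k B] [FiniteDimensional k B]

theorem one_form {q : B →ₗ[k] B →ₗ[k] k} (u v : B) :
    (LinearMap.BilinForm.baseChange F q : LinearMap.BilinForm F (F ⊗[k] B))
    ((1 : F) ⊗ₜ[k] u) ((1 : F) ⊗ₜ[k] v) = algebraMap k F (q u v) := by
  rw [LinearMap.BilinForm.baseChange_tmul, one_mul, Algebra.smul_def, mul_one]

/-- global skew forms are constant -/
theorem form_iff (𝒢 : Fl3 k X.n B) {c : LinearMap.BilinForm F (F ⊗[k] B)} :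
    c ∈ SkF (X.cb F 𝒢) ↔ ∃ d : B →ₗ[k] B →ₗ[k] k, c = LinearMap.BilinForm.baseChange F d ∧
      (∀ u v, d u v = - d v u) ∧
        ∀ s a b, 1 ≤ a + b → ∀ u ∈ 𝒢.G s a, ∀ v ∈ 𝒢.G s b, d u v = 0 := by
  constructor
  · rintro ⟨h1, h2⟩
    obtain ⟨d, rfl, hd⟩ := ((X.fl F 𝒢).bil_const (hw := X.w0_fin) (fun p => X.w0_window p)).1 h2
    refine ⟨d, rfl, fun u v => ?_, fun s a b hab u hu v hv => ?_⟩
    · have := h1 ((1 : F) ⊗ₜ[k] u) ((1 : F) ⊗ₜ[k] v)
      rw [one_form, one_form, ← map_neg] at this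
      exact (algebraMap k F).injective this
    · exact hd (some (X.z s)) a b (by omega) u (by rwa [X.fl_G F, X.Gp_z]) v
        (by rwa [X.fl_G F, X.Gp_z])
  · rintro ⟨d, rfl, h1, h2⟩
    refine ⟨?_, ?_⟩
    · intro x y
      have key : (LinearMap.BilinForm.baseChange F d : LinearMap.BilinForm F (F ⊗[k] B)) =
          - (LinearMap.BilinForm.baseChange F d).flip := by
        refine ext_one fun u => ext_one fun v => ?_
        rw [one_form]
        show _ = -(LinearMap.BilinForm.baseChange F d) ((1 : F) ⊗ₜ[k] v) ((1 : F) ⊗ₜ[k] u)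
        rw [one_form, h1, map_neg]
      exact LinearMap.congr_fun (LinearMap.congr_fun key x) y
    · refine ((X.fl F 𝒢).bil_const (hw := X.w0_fin) (fun p => X.w0_window p)).2 ⟨d, rfl, ?_⟩
      intro p a b hab u hu v hv
      rw [X.fl_G F] at hu hv
      by_cases h : X.Marked p
      · obtain ⟨s, rfl⟩ := h
        rw [X.Gp_z] at hu hv
        exact h2 s a b (by omega) u hu v hv
      · rw [X.Gp_unmarked 𝒢 h] at hu hv
        split_ifs at hu with h3
        · split_ifs at hv with h4
          · omega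
          · rw [(Submodule.mem_bot k).1 hv, map_zero]
        · rw [(Submodule.mem_bot k).1 hu, map_zero]; rfl

/-- `Ext(S, M) = 0` -/
theorem noExt_of {B' : Type*} [AddCommGroup B'] [Module k B'] [FiniteDimensional k B']
    (𝒢 : Fl3 k X.n B) (𝒢' : Fl3 k X.n B')
    (h : ∀ Y : Fin 3 → (B →ₗ[k] B'), ∃ (a : B →ₗ[k] B') (b : Fin 3 → (B →ₗ[k] B')),
      (∀ s, Y s = a + b s) ∧ ∀ s c, ∀ v ∈ 𝒢.G s c, b s v ∈ 𝒢'.G s c) :
    NoExt X.kap (X.cb F 𝒢) (X.cb F 𝒢') := by
  rw [noExt_iff (X.dualizing F)]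
  refine (X.fl F 𝒢).hom_h1 (X.fl F 𝒢') fun f => ?_
  obtain ⟨a, b, h1, h2⟩ := h fun s => f (some (X.z s))
  refine ⟨a, fun p c v hv => ?_⟩
  rw [X.fl_G F] at hv ⊢
  by_cases hm : X.Marked p
  · obtain ⟨s, rfl⟩ := hm
    rw [X.Gp_z] at hv ⊢
    have : f (some (X.z s)) v - a v = b s v := by
      rw [h1 s, LinearMap.add_apply, add_sub_cancel_left]
    rw [this]
    exact h2 s c v hv
  · rw [X.Gp_unmarked 𝒢 hm] at hv
    rw [X.Gp_unmarked 𝒢' hm]
    split_ifs at hv ⊢ with h3
    · trivial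
    · rw [(Submodule.mem_bot k).1 hv, map_zero, map_zero, sub_zero]
      exact zero_mem _

section form

variable {q : B →ₗ[k] B →ₗ[k] k}

omit [IsAlgClosed k] in
/-- the dual basis -/
theorem exists_dualBasis (hnd : ∀ u, (∀ v, q u v = 0) → u = 0) {ι : Type*} [Fintype ι]
    [DecidableEq ι] (b : Basis ι k B) :
    ∃ b' : ι → B, ∀ i j, q (b i) (b' j) = if i = j then 1 else 0 := by
  have hinj : Function.Injective q := by
    rw [injective_iff_map_eq_zero]
    intro x hx
    exact hnd x fun y => by rw [hx]; rfl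
  have hsurj := (LinearMap.injective_iff_surjective_of_finrank_eq_finrank
    (Subspace.dual_finrank_eq (K := k) (V := B)).symm).1 hinj
  have hfinj : Function.Injective q.flip := by
    rw [injective_iff_map_eq_zero]
    intro x hx
    rw [← Module.forall_dual_apply_eq_zero_iff k]
    intro φ
    obtain ⟨y, rfl⟩ := hsurj φ
    exact LinearMap.congr_fun hx y
  have hfs := (LinearMap.injective_iff_surjective_of_finrank_eq_finrank
    (Subspace.dual_finrank_eq (K := k) (V := B)).symm).1 hfinj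
  choose b' hb' using fun j => hfs (b.coord j)
  refine ⟨b', fun i j => ?_⟩
  have h1 : q (b i) (b' j) = b.coord j (b i) := LinearMap.congr_fun (hb' j) (b i)
  rw [h1, Basis.coord_apply, Basis.repr_self, Finsupp.single_apply]

theorem repr_eq {ι : Type*} [Fintype ι] [DecidableEq ι] {b : Basis ι k B} {b' : ι → B}
    (h : ∀ i j, q (b i) (b' j) = if i = j then 1 else 0) (x : F ⊗[k] B) (i : ι) :
    (LinearMap.BilinForm.baseChange F q : LinearMap.BilinForm F (F ⊗[k] B)) x
      ((1 : F) ⊗ₜ[k] b' i) = (b.baseChange F).repr x i := by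
  conv_lhs => rw [← (b.baseChange F).sum_repr x]
  rw [map_sum, LinearMap.sum_apply, Finset.sum_eq_single i]
  · rw [map_smul, LinearMap.smul_apply, Basis.baseChange_apply, one_form, h, if_pos rfl, map_one,
      smul_eq_mul, mul_one]
  · intro j _ hj
    rw [map_smul, LinearMap.smul_apply, Basis.baseChange_apply, one_form, h, if_neg hj, map_zero,
      smul_zero]
  · intro hi
    exact absurd (Finset.mem_univ _) hi

/-- a constant orthogonal space -/
theorem orthS_of (𝒢 : Fl3 k X.n B) (hsymm : ∀ u v, q u v = q v u)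
    (hnd : ∀ u, (∀ v, q u v = 0) → u = 0)
    (hd : ∀ s a v, v ∈ 𝒢.G s a ↔ ∀ w ∈ 𝒢.G s (1 - a), q v w = 0) :
    OrthS (fun _ => 0) (X.cb F 𝒢) (LinearMap.BilinForm.baseChange F q) := by
  classical
  have hd' : ∀ p a v, v ∈ (X.fl F 𝒢).G p a ↔ ∀ w ∈ (X.fl F 𝒢).G p (1 - a), q v w = 0 := by
    intro p a v
    rw [X.fl_G F, X.fl_G F]
    by_cases hm : X.Marked p
    · obtain ⟨s, rfl⟩ := hm
      rw [X.Gp_z, X.Gp_z]
      exact hd s a v
    · rw [X.Gp_unmarked 𝒢 hm, X.Gp_unmarked 𝒢 hm]
      by_cases h3 : a ≤ 0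
      · rw [if_pos h3, if_neg (by omega)]
        refine ⟨fun _ w hw => ?_, fun _ => trivial⟩
        rw [(Submodule.mem_bot k).1 hw, map_zero]
      · rw [if_neg h3, if_pos (by omega), Submodule.mem_bot]
        refine ⟨?_, fun h => hnd v fun w => h w trivial⟩
        rintro rfl w _
        rw [map_zero]; rfl
  refine ⟨fun p a x => ⟨fun hx c y hy => ?_, fun h => ?_⟩, fun x y => ?_, fun x hx => ?_⟩
  · rw [add_zero]
    refine ((X.fl F 𝒢).bil_mem_iff (hw := X.w0_fin)).2 ?_ a c x y hx hy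
    intro a b hab u hu v hv
    exact (hd' p a u).1 hu v ((X.fl F 𝒢).anti p (by omega) hv)
  · -- the adapted basis and its dual
    have hb := (X.fl F 𝒢).adapted p
    obtain ⟨b', hb'⟩ := exists_dualBasis hnd ((X.fl F 𝒢).basis p)
    refine ((X.fl F 𝒢).split (hw := X.w0_fin) hb a x).2 fun i => ?_
    rw [← repr_eq hb']
    have h1 : (1 : F) ⊗ₜ[k] b' i ∈ ((X.cb F 𝒢).ch p).L (-(X.fl F 𝒢).wt p i) := by
      refine (X.fl F 𝒢).one_mem.2 ((hd' p _ _).2 fun w hw => ?_)
      rw [hsymm]
      have h2 := (hb _ w).1 hw i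
      have h3 : q w (b' i) = ((X.fl F 𝒢).basis p).repr w i := by
        conv_lhs => rw [← ((X.fl F 𝒢).basis p).sum_repr w]
        rw [map_sum, LinearMap.sum_apply, Finset.sum_eq_single i]
        · rw [map_smul, LinearMap.smul_apply, hb', if_pos rfl, smul_eq_mul, mul_one]
        · intro j _ hj
          rw [map_smul, LinearMap.smul_apply, hb', if_neg hj, smul_zero]
        · intro hi
          exact absurd (Finset.mem_univ _) hi
      rw [h3]
      by_contra h4
      have := h2 h4
      omega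
    have h5 := h _ _ h1
    rwa [add_zero, ← sub_eq_add_neg] at h5
  · have key : (LinearMap.BilinForm.baseChange F q : LinearMap.BilinForm F (F ⊗[k] B)) =
        (LinearMap.BilinForm.baseChange F q).flip := by
      refine ext_one fun u => ext_one fun v => ?_
      rw [one_form]
      show _ = (LinearMap.BilinForm.baseChange F q) ((1 : F) ⊗ₜ[k] v) ((1 : F) ⊗ₜ[k] u)
      rw [one_form, hsymm]
    exact LinearMap.congr_fun (LinearMap.congr_fun key x) y
  · let b := finBasis k B
    obtain ⟨b', hb'⟩ := exists_dualBasis hnd b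
    apply (b.baseChange F).repr.injective
    ext i
    rw [← repr_eq hb', hx, map_zero]
    rfl

end form

end fl

end Vale.Agent.P182.H361
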