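import Vale.Agent.P182.H258.HIn
import Vale.Agent.P182.H578.F1Cfg
import Vale.Agent.P182.H430.NConst

/-!
# The levels of the flags of a configuration, and the restriction to the nonzero columns
-/

namespace Vale.Agent.P182.H361

open Module Matrix Vale.Agent.P182.H533 Vale.Agent.P182.B1 Vale.Agent.P182.H62
open Vale.Agent.P182.H430 hiding perp

universe u v w

section lvl

variable {L : Type u} {V : Type v} {J : Type w} [Field L] [AddCommGroup V] [Module L V]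
  {𝒟 : Cfg L V J}

/-- the levels of the flag `s` -/
def lvl (𝒟 : Cfg L V J) (n : ℕ) (s : Fin 3) (a : ℤ) : Submodule L V :=
  if 1 ≤ a then 𝒟.F s (n + 1 - a).toNat else perp 𝒟.q (𝒟.F s (a + n).toNat)

theorem lvl_pos {n : ℕ} {s : Fin 3} {a : ℤ} (h : 1 ≤ a) :
    lvl 𝒟 n s a = 𝒟.F s (n + 1 - a).toNat := if_pos h

theorem lvl_neg {n : ℕ} {s : Fin 3} {a : ℤ} (h : a ≤ 0) :
    lvl 𝒟 n s a = perp 𝒟.q (𝒟.F s (a + n).toNat) := if_neg (by omega)

theorem lvl_F {n : ℕ} {s : Fin 3} {i : ℕ} (h1 : i ≤ n) :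
    lvl 𝒟 n s (n + 1 - i) = 𝒟.F s i := by
  rw [lvl_pos (by omega)]
  congr 1
  omega

theorem lvl_perp {n : ℕ} {s : Fin 3} {i : ℕ} (h1 : i ≤ n) :
    lvl 𝒟 n s (i - n) = perp 𝒟.q (𝒟.F s i) := by
  rw [lvl_neg (by omega)]
  congr 2
  omega

theorem F_le_perp (g : 𝒟.Good) (s : Fin 3) (i j : ℕ) : 𝒟.F s i ≤ perp 𝒟.q (𝒟.F s j) :=
  (g.mono s (le_max_left i j)).trans
    ((g.iso s (max i j)).trans (perp_anti (g.mono s (le_max_right i j))))

theorem lvl_anti (g : 𝒟.Good) (n : ℕ) (s : Fin 3) : Antitone (lvl 𝒟 n s) := by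
  intro a b hab
  rcases le_or_gt 1 a with ha | ha
  · rw [lvl_pos ha, lvl_pos (ha.trans hab)]
    exact g.mono s (by omega)
  · have ha' : a ≤ 0 := by omega
    rcases le_or_gt 1 b with hb | hb
    · rw [lvl_neg ha', lvl_pos hb]
      exact F_le_perp g s _ _
    · have hb' : b ≤ 0 := by omega
      rw [lvl_neg ha', lvl_neg hb']
      exact perp_anti (g.mono s (by omega))

theorem lvl_top (g : 𝒟.Good) {n : ℕ} {s : Fin 3} {a : ℤ} (h : a ≤ -n) : lvl 𝒟 n s a = ⊤ := by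
  rw [lvl_neg (by omega), show (a + n).toNat = 0 by omega, g.zero, eq_top_iff]
  intro v _ w hw
  rw [(Submodule.mem_bot L).1 hw, map_zero]

theorem lvl_bot (g : 𝒟.Good) {n : ℕ} {s : Fin 3} {a : ℤ} (h : n + 1 ≤ a) : lvl 𝒟 n s a = ⊥ := by
  rw [lvl_pos (by omega), show ((n : ℤ) + 1 - a).toNat = 0 by omega, g.zero]

theorem lvl_dual [FiniteDimensional L V] (g : 𝒟.Good) {n : ℕ} {s : Fin 3} {a : ℤ} :
    lvl 𝒟 n s a = perp 𝒟.q (lvl 𝒟 n s (1 - a)) := by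
  rcases le_or_gt 1 a with ha | ha
  · rw [lvl_pos ha, lvl_neg (by omega), perp_perp g.form]
    congr 1
    omega
  · rw [lvl_neg (by omega), lvl_pos (by omega)]
    congr 2
    omega

theorem mem_lvl_dual [FiniteDimensional L V] (g : 𝒟.Good) {n : ℕ} {s : Fin 3} {a : ℤ} {v : V} :
    v ∈ lvl 𝒟 n s a ↔ ∀ w ∈ lvl 𝒟 n s (1 - a), 𝒟.q v w = 0 := by
  rw [lvl_dual g]
  rfl

end lvl

end Vale.Agent.P182.H361
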