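import Vale.Agent.P182.H361.Fl

/-!
# Levels of constant flagged spaces
-/

namespace Vale.Agent.P182.H361

open LinearMap Submodule Module TensorProduct Polynomial
open Vale.Agent.P182 Vale.Agent.P182.H430 Vale.Agent.P182.H388 Vale.Agent.P182.H735

section cfl

variable {k F P : Type*} [Field k] [Field F] [Algebra k F] {C : Curve k F P} {w0 : P → ℤ}
  {B : Type*} [AddCommGroup B] [Module k B] [FiniteDimensional k B] (𝒢 : CFl C w0 B)
  {hw : {p | w0 p ≠ 0}.Finite}

/-- comparison of the levels of the bundle of a constant flagged space -/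
theorem _root_.Vale.Agent.P182.H430.CFl.cfl_le_iff {p : P} {a b : ℤ} :
    ((𝒢.bun hw).ch p).L a ≤ ((𝒢.bun hw).ch p).L b ↔
      ∀ e : ℤ, 𝒢.G p (a - C.per p * e) ≤ 𝒢.G p (b - C.per p * e) := by
  constructor
  · intro h e v hv
    have hne : (C.pl p).unif ^ e ≠ 0 := zpow_ne_zero _ (C.pl p).unif_ne
    have h1 : (C.pl p).unif ^ e • ((1 : F) ⊗ₜ[k] v) ∈ ((𝒢.bun hw).ch p).L a := by
      rw [LChain.smul_iff _ _ hne, (C.pl p).ord_zpow, 𝒢.one_mem]
      exact hv
    have h2 := h h1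
    rwa [LChain.smul_iff _ _ hne, (C.pl p).ord_zpow, 𝒢.one_mem] at h2
  · intro h x hx
    have hs := 𝒢.split (hw := hw) (𝒢.adapted p)
    rw [hs a x] at hx
    rw [hs b x]
    intro i
    by_cases h0 : ((𝒢.basis p).baseChange F).repr x i = 0
    · rw [h0]; exact zero_mem _
    have h1 := hx i
    rw [(C.pl p).mem_M_of_ne h0] at h1 ⊢
    have h2 : 𝒢.basis p i ∈ 𝒢.G p (a - C.per p *
        (C.pl p).ord (((𝒢.basis p).baseChange F).repr x i)) :=
      𝒢.anti p (by linarith) ((𝒢.adapted p).basis_mem i)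
    have h3 := ((𝒢.adapted p) _ _).1 (h _ h2) i (by rw [Basis.repr_self]; simp)
    linarith

/-- flags induced on a subspace induce the chains -/
theorem _root_.Vale.Agent.P182.H430.CFl.mem_comap_iff {B' : Type*} [AddCommGroup B'] [Module k B']
    [FiniteDimensional k B'] (𝒢' : CFl C w0 B') {j : B' →ₗ[k] B} {p : P}
    (hj : ∀ a, 𝒢'.G p a = (𝒢.G p a).comap j) {a : ℤ} {x : F ⊗[k] B'} :
    x ∈ ((𝒢'.bun hw).ch p).L a ↔ j.baseChange F x ∈ ((𝒢.bun hw).ch p).L a := by
  constructor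
  · intro hx
    have h1 := (𝒢'.maps (hw := hw) (p := p) ((𝒢.bun hw).ch p) (c := 0)
      (φ := j.baseChange F)).2 (fun a v hv => by
        rw [add_zero, LinearMap.baseChange_tmul, 𝒢.one_mem]
        rw [hj] at hv
        exact hv) a x hx
    rwa [add_zero] at h1
  · intro hx
    rw [𝒢'.split (hw := hw) (𝒢'.adapted p) a x]
    intro i
    obtain ⟨ψ, hψ⟩ : ∃ ψ : B →ₗ[k] k, (∀ v, ψ (j v) = (𝒢'.basis p).repr v i) ∧
        ∀ v ∈ 𝒢.G p (𝒢'.wt p i + 1), ψ v = 0 := by
      have h1 : (𝒢'.basis p).coord i ∈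
          (LinearMap.ker ((𝒢.G p (𝒢'.wt p i + 1)).mkQ ∘ₗ j)).dualAnnihilator := by
        rw [Submodule.mem_dualAnnihilator]
        intro v hv
        rw [LinearMap.mem_ker, LinearMap.comp_apply, Submodule.mkQ_apply,
          Submodule.Quotient.mk_eq_zero] at hv
        have h2 : v ∈ 𝒢'.G p (𝒢'.wt p i + 1) := by rw [hj]; exact hv
        by_contra h3
        have h4 := ((𝒢'.adapted p) _ v).1 h2 i h3
        omega
      rw [← LinearMap.range_dualMap_eq_dualAnnihilator_ker] at h1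
      obtain ⟨ψ', hψ'⟩ := h1
      refine ⟨ψ' ∘ₗ (𝒢.G p (𝒢'.wt p i + 1)).mkQ, fun v => ?_, fun v hv => ?_⟩
      · exact LinearMap.congr_fun hψ' v
      · rw [LinearMap.comp_apply, Submodule.mkQ_apply, (Submodule.Quotient.mk_eq_zero _).2 hv,
          map_zero]
    let Ψ : (F ⊗[k] B) →ₗ[F] F :=
      (TensorProduct.AlgebraTensorModule.rid k F F).toLinearMap ∘ₗ ψ.baseChange F
    have hΨ : ∀ v : B, Ψ ((1 : F) ⊗ₜ[k] v) = algebraMap k F (ψ v) := by
      intro v
      show (TensorProduct.AlgebraTensorModule.rid k F F) (ψ.baseChange F ((1 : F) ⊗ₜ[k] v)) = _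
      rw [LinearMap.baseChange_tmul, TensorProduct.AlgebraTensorModule.rid_tmul,
        Algebra.smul_def, mul_one]
    have h2 := (𝒢.maps_line (hw := hw) (p := p) (c := -(𝒢'.wt p i)) (φ := Ψ)).2 (fun c v hv => by
      rw [hΨ]
      by_cases hc : c ≤ 𝒢'.wt p i
      · by_cases h0 : ψ v = 0
        · rw [h0, map_zero]
          exact zero_mem _
        rw [(C.pl p).mem_M_of_ne ((_root_.map_ne_zero (algebraMap k F)).2 h0), (C.pl p).ord_alg _ h0]
        linarith
      · rw [hψ.2 v (𝒢.anti p (by omega) hv), map_zero]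
        exact zero_mem _) a _ hx
    have h3 : Ψ ∘ₗ j.baseChange F = ((𝒢'.basis p).baseChange F).coord i := by
      refine ext_one fun v => ?_
      rw [LinearMap.comp_apply, LinearMap.baseChange_tmul, hΨ, hψ.1, Basis.coord_apply,
        Basis.baseChange_repr_tmul, Algebra.smul_def, mul_one]
    have h4 := LinearMap.congr_fun h3 x
    rw [LinearMap.comp_apply, Basis.coord_apply] at h4
    rw [← h4, sub_eq_add_neg]
    exact h2

end cfl

section res

variable {k : Type*} [Field k] {n : ℕ} {M : Type*} [AddCommGroup M] [Module k M]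

/-- restriction of the flags to a subspace -/
def fl3Res (ℋ : Fl3 k n M) (R : Submodule k M) : Fl3 k n ↥R where
  G s a := (ℋ.G s a).comap R.subtype
  anti s _ _ h := Submodule.comap_mono (ℋ.anti s h)
  top s a h := by rw [ℋ.top s a h, Submodule.comap_top]
  bot s a h := by rw [ℋ.bot s a h, Submodule.comap_bot, Submodule.ker_subtype]

theorem fl3Res_G (ℋ : Fl3 k n M) (R : Submodule k M) (s : Fin 3) (a : ℤ) :
    (fl3Res ℋ R).G s a = (ℋ.G s a).comap R.subtype := rfl

end res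

section nd

variable {k : Type*} [Field k] [IsAlgClosed k] {J : Type*} [Fintype J] [DecidableEq J]
  {X : NData k J} {F : Type*} [Field F] [Algebra k[X] F] [IsFractionRing k[X] F]
  [Algebra k F] [IsScalarTower k k[X] F]
variable {M : Type*} [AddCommGroup M] [Module k M] [FiniteDimensional k M]

omit [IsAlgClosed k] [DecidableEq J] [FiniteDimensional k M] in
theorem Gp_res (ℋ : Fl3 k X.n M) (R : Submodule k M) (p : Option k) (a : ℤ) :
    X.Gp (fl3Res ℋ R) p a = (X.Gp ℋ p a).comap R.subtype := by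
  by_cases h : X.Marked p
  · obtain ⟨s, rfl⟩ := h
    rw [X.Gp_z, X.Gp_z]
    rfl
  · rw [X.Gp_unmarked _ h, X.Gp_unmarked _ h]
    split_ifs
    · rw [Submodule.comap_top]
    · rw [Submodule.comap_bot, Submodule.ker_subtype]

/-- comparison of levels passes to a subspace -/
theorem cb_le_res (ℋ : Fl3 k X.n M) (R : Submodule k M) {p : Option k} {a b : ℤ}
    (h : ((X.cb F ℋ).ch p).L a ≤ ((X.cb F ℋ).ch p).L b) :
    ((X.cb F (fl3Res ℋ R)).ch p).L a ≤ ((X.cb F (fl3Res ℋ R)).ch p).L b := by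
  have h1 := ((X.fl F ℋ).cfl_le_iff (hw := X.w0_fin)).1 h
  refine ((X.fl F (fl3Res ℋ R)).cfl_le_iff (hw := X.w0_fin)).2 fun e => ?_
  rw [X.fl_G F, X.fl_G F, Gp_res, Gp_res]
  exact Submodule.comap_mono (h1 e)

theorem mem_cb_res (ℋ : Fl3 k X.n M) (R : Submodule k M) {p : Option k} {a : ℤ}
    {x : F ⊗[k] ↥R} : x ∈ ((X.cb F (fl3Res ℋ R)).ch p).L a ↔
      R.subtype.baseChange F x ∈ ((X.cb F ℋ).ch p).L a :=
  (X.fl F ℋ).mem_comap_iff (hw := X.w0_fin) (X.fl F (fl3Res ℋ R)) (j := R.subtype)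
    fun a => by rw [X.fl_G F, X.fl_G F, Gp_res]

end nd

end Vale.Agent.P182.H361
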